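import Vale.Agent.P155.U.Full

/-!
# P155, Markov property of the levels: zero identities for regular conditional laws
-/

namespace Vale.Agent.P155.NT730Y

open MeasureTheory ProbabilityTheory Set TopologicalSpace Filter

variable {Pp S Y : Type*} [MeasurableSpace Pp] [MeasurableSpace S] [StandardBorelSpace S]
  [Nonempty S] [MeasurableSpace Y] [StandardBorelSpace Y]

omit [StandardBorelSpace S] [Nonempty S] in
/-- the real embedding generates the sigma algebra by the countable π-system of rational rays -/
theorem zero_sets_of_rat {μ : Measure S} [IsFiniteMeasure μ] {π : S → Y} (hπ : Measurable π)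
    {D : S → ℂ} (hD : Integrable D μ) (h1 : ∫ s, D s ∂μ = 0)
    (hq : ∀ q : ℚ, ∫ s in (fun s => embeddingReal Y (π s)) ⁻¹' Iic (q : ℝ), D s ∂μ = 0)
    {T : Set Y} (hT : MeasurableSet T) : ∫ s in π ⁻¹' T, D s ∂μ = 0 := by
  have hj : MeasurableEmbedding (embeddingReal Y) := measurableEmbedding_embeddingReal Y
  have hm : Measurable (fun s => embeddingReal Y (π s)) := hj.measurable.comp hπ
  have key : ∀ R : Set ℝ, MeasurableSet R →
      ∫ s in (fun s => embeddingReal Y (π s)) ⁻¹' R, D s ∂μ = 0 := by
    intro R hR
    have hR' : MeasurableSet[borel ℝ] R := by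
      rwa [← BorelSpace.measurable_eq (α := ℝ)]
    rw [Real.borel_eq_generateFrom_Iic_rat] at hR'
    clear hR
    induction R, hR' using MeasurableSpace.induction_on_inter (s := ⋃ (a : ℚ), {Iic (a : ℝ)}) rfl
      Real.isPiSystem_Iic_rat with
    | empty => simp
    | basic R hR =>
      obtain ⟨q, hq'⟩ := mem_iUnion.1 hR
      rw [mem_singleton_iff] at hq'
      subst hq'
      exact hq q
    | compl R hR ih =>
      have hR2 : MeasurableSet R := by
        rw [BorelSpace.measurable_eq (α := ℝ), Real.borel_eq_generateFrom_Iic_rat]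
        exact hR
      have h2 := integral_add_compl (hm hR2) hD
      rw [ih, zero_add, h1] at h2
      rw [preimage_compl, h2]
    | iUnion f hd hmf ih =>
      have hR2 : ∀ i, MeasurableSet (f i) := by
        intro i
        rw [BorelSpace.measurable_eq (α := ℝ), Real.borel_eq_generateFrom_Iic_rat]
        exact hmf i
      rw [preimage_iUnion, integral_iUnion (fun i => hm (hR2 i)) _ hD.integrableOn]
      · simp only [ih, tsum_zero]
      · intro i j hij
        exact (hd hij).preimage _
  have e : π ⁻¹' T = (fun s => embeddingReal Y (π s)) ⁻¹' (embeddingReal Y '' T) := by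
    ext s
    simp only [mem_preimage]
    exact (hj.injective.mem_set_image).symm
  rw [e]
  exact key _ (hj.measurableSet_image.2 hT)

/-- **zero identities pass to the regular conditional laws** -/
theorem kernel_zero {Q : Measure S} [IsProbabilityMeasure Q] {X : S → Pp} (hX : Measurable X)
    {π : S → Y} (hπ : Measurable π) {D : S → ℂ} (hD : Measurable D) {C : ℝ}
    (hDb : ∀ s, ‖D s‖ ≤ C)
    (h0 : ∀ B : Set Pp, MeasurableSet B → ∀ T : Set Y, MeasurableSet T →
      ∫ s in X ⁻¹' B ∩ π ⁻¹' T, D s ∂Q = 0) :
    ∀ᵐ p ∂(Q.map X), ∀ T : Set Y, MeasurableSet T →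
      ∫ s in π ⁻¹' T, D s ∂(condDistrib (fun s => s) X Q p) = 0 := by
  have hprob : IsProbabilityMeasure (Q.map X) := Measure.isProbabilityMeasure_map hX.aemeasurable
  have hcomp : (Q.map X) ⊗ₘ condDistrib (fun s => s) X Q = Q.map (fun s => (X s, s)) :=
    compProd_map_condDistrib aemeasurable_id
  have hDi : ∀ p, Integrable D (condDistrib (fun s => s) X Q p) := fun p =>
    Integrable.of_bound hD.aestronglyMeasurable C (ae_of_all _ hDb)
  -- one set
  have one : ∀ T : Set Y, MeasurableSet T →
      ∀ᵐ p ∂(Q.map X), ∫ s in π ⁻¹' T, D s ∂(condDistrib (fun s => s) X Q p) = 0 := by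
    intro T hT
    have hF : Measurable (fun s => (π ⁻¹' T).indicator D s) := hD.indicator (hπ hT)
    have hFb : ∀ s, ‖(π ⁻¹' T).indicator D s‖ ≤ C := fun s =>
      (norm_indicator_le_norm_self _ _).trans (hDb s)
    have hfe : ∀ p, ∫ s in π ⁻¹' T, D s ∂(condDistrib (fun s => s) X Q p) =
        ∫ s, (π ⁻¹' T).indicator D s ∂(condDistrib (fun s => s) X Q p) := fun p =>
      (integral_indicator (hπ hT)).symm
    have hfm : StronglyMeasurable
        (fun p => ∫ s, (π ⁻¹' T).indicator D s ∂(condDistrib (fun s => s) X Q p)) :=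
      StronglyMeasurable.integral_kernel_prod_right'
        (f := fun x : Pp × S => (π ⁻¹' T).indicator D x.2)
        (hF.comp measurable_snd).stronglyMeasurable
    have hfb : ∀ p, ‖∫ s, (π ⁻¹' T).indicator D s ∂(condDistrib (fun s => s) X Q p)‖ ≤ C := by
      intro p
      have := norm_integral_le_of_norm_le_const
        (μ := condDistrib (fun s => s) X Q p) (ae_of_all _ hFb)
      simpa using this
    have hfi : Integrable (fun p => ∫ s, (π ⁻¹' T).indicator D s
        ∂(condDistrib (fun s => s) X Q p)) (Q.map X) :=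
      Integrable.of_bound hfm.aestronglyMeasurable C (ae_of_all _ hfb)
    have h := hfi.ae_eq_zero_of_forall_setIntegral_eq_zero (fun B hB _ => by
      have h3 : ∫ p in B, ∫ s, (π ⁻¹' T).indicator D s ∂(condDistrib (fun s => s) X Q p)
          ∂(Q.map X) = ∫ x in B ×ˢ univ, (π ⁻¹' T).indicator D x.2
            ∂((Q.map X) ⊗ₘ condDistrib (fun s => s) X Q) := by
        rw [Measure.setIntegral_compProd hB MeasurableSet.univ]
        · simp
        · apply Integrable.integrableOn
          exact Integrable.of_bound (hF.comp measurable_snd).aestronglyMeasurable C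
            (ae_of_all _ fun x => hFb x.2)
      have hXid : Measurable (fun s : S => (X s, s)) := hX.prodMk measurable_id
      have hF2 : Measurable (fun x : Pp × S => (π ⁻¹' T).indicator D x.2) := hF.comp measurable_snd
      rw [h3, hcomp, setIntegral_map (hB.prod MeasurableSet.univ)
        hF2.aestronglyMeasurable hXid.aemeasurable]
      have e : (fun s => (X s, s)) ⁻¹' (B ×ˢ univ) = X ⁻¹' B := by
        ext s
        simp
      rw [e, setIntegral_indicator (hπ hT)]
      exact h0 B hB T hT)
    filter_upwards [h] with p hp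
    rw [hfe p]
    exact hp
  have h2 : ∀ᵐ p ∂(Q.map X), ∀ q : ℚ, ∫ s in (fun s => embeddingReal Y (π s)) ⁻¹' Iic (q : ℝ),
      D s ∂(condDistrib (fun s => s) X Q p) = 0 := by
    rw [ae_all_iff]
    intro q
    exact one ((embeddingReal Y) ⁻¹' Iic (q : ℝ))
      ((measurableEmbedding_embeddingReal Y).measurable measurableSet_Iic)
  filter_upwards [h2, one univ MeasurableSet.univ] with p hp hp1 T hT
  exact zero_sets_of_rat hπ (hDi p) (by simpa using hp1) hp hT

end Vale.Agent.P155.NT730Y
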