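import Vale.Agent.P155.NT730Y.Mk0

/-!
# P155, Markov property of the levels: given the first level, the next ones are signed carpets of
the open set `Ω \ G 1`
-/

namespace Vale.Agent.P155.NT730Y

open MeasureTheory ProbabilityTheory Set TopologicalSpace Filter Topology Uq

variable {Ω : Set ℂ}

/-- a countable family of test functions, dense for the energy and for the pairings -/
theorem exists_dense {R : (ℂ → ℝ) → HL} (Ω : Set ℂ) :
    ∃ e : ℕ → ℂ → ℝ, (∀ n, IsTest Ω (e n)) ∧ ∀ φ, IsTest Ω φ → ∃ u : ℕ → ℕ,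
      Tendsto (fun n => R (e (u n))) atTop (𝓝 (R φ)) ∧
      ∀ f : Fld Ω, Tendsto (fun n => pr f (e (u n))) atTop (𝓝 (pr f φ)) := by
  have : Fact ((2 : ENNReal) ≠ ⊤) := ⟨by norm_num⟩
  set J : {φ : ℂ → ℝ // IsTest Ω φ} → HL × Fld Ω :=
    fun φ => (R φ.1, (U613.memLp_test φ.2).toLp φ.1) with hJ
  have : Nonempty (range J) := ⟨⟨J ⟨fun _ => 0, U.isTest_zero Ω⟩, mem_range_self _⟩⟩
  have hx : ∀ n, ∃ φ : {φ : ℂ → ℝ // IsTest Ω φ}, J φ = (denseSeq (range J) n : HL × Fld Ω) :=
    fun n => (denseSeq (range J) n).2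
  choose e he using hx
  refine ⟨fun n => (e n).1, fun n => (e n).2, fun φ hφ => ?_⟩
  have hd : (⟨J ⟨φ, hφ⟩, mem_range_self _⟩ : range J) ∈ closure (range (denseSeq (range J))) :=
    denseRange_denseSeq (range J) _
  obtain ⟨x, hx, hlim⟩ := mem_closure_iff_seq_limit.1 hd
  choose u hu using hx
  have h1 : Tendsto (fun n => J (e (u n))) atTop (𝓝 (J ⟨φ, hφ⟩)) := by
    have h2 := (continuous_subtype_val.tendsto _).comp hlim
    refine h2.congr fun n => ?_
    simp only [Function.comp_apply]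
    rw [he, hu]
  refine ⟨u, (continuous_fst.tendsto _).comp h1, fun f => ?_⟩
  have h3 : Tendsto (fun n => (J (e (u n))).2) atTop (𝓝 (J ⟨φ, hφ⟩).2) :=
    (continuous_snd.tendsto _).comp h1
  rw [U613.pr_eq_inner f hφ]
  simp only [U613.pr_eq_inner f (e _).2]
  exact h3.inner tendsto_const_nhds

theorem tendsto_energy {R : (ℂ → ℝ) → HL} (hR : IsR Ω R) {V : Set ℂ} (hV : V ⊆ Ω) {φ : ℂ → ℝ}
    {φn : ℕ → ℂ → ℝ} (hφ : IsTest Ω φ) (hφn : ∀ n, IsTest Ω (φn n))
    (h : Tendsto (fun n => R (φn n)) atTop (𝓝 (R φ))) :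
    Tendsto (fun n => greenEnergy V (φn n)) atTop (𝓝 (greenEnergy V φ)) := by
  rw [hR.energy V hV φ hφ]
  simp only [hR.energy V hV _ (hφn _)]
  exact ((((GV V).starProjection).continuous.tendsto _).comp h).norm.pow 2

/-- the regular conditional law of the levels given the first one -/
noncomputable def kap (Q : Measure (Sp Ω)) [IsFiniteMeasure Q] :
    Kernel (NonemptyCompacts ℂ × Fld Ω) (Sp Ω) :=
  condDistrib (fun s => s) (fun s => s 1) Q

instance (Q : Measure (Sp Ω)) [IsFiniteMeasure Q] : IsMarkovKernel (kap Q) := by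
  unfold kap
  infer_instance

theorem meas_one : Measurable (fun s : Sp Ω => s 1) := measurable_pi_apply 1

theorem kap_comp (Q : Measure (Sp Ω)) [IsProbabilityMeasure Q] :
    (Q.map (fun s => s 1)) ⊗ₘ kap Q = Q.map (fun s => (s 1, s)) :=
  compProd_map_condDistrib aemeasurable_id

/-- almost sure properties pass to the conditional laws -/
theorem ae_kap {Q : Measure (Sp Ω)} [IsProbabilityMeasure Q]
    {P : Sp Ω → Prop} (h : ∀ᵐ s ∂Q, P s) : ∀ᵐ p ∂(Q.map (fun s => s 1)), ∀ᵐ s ∂(kap Q p), P s := by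
  have hm : Measurable (fun s : Sp Ω => (s 1, s)) := meas_one.prodMk measurable_id
  have h1 : ∀ᵐ x ∂(Q.map (fun s => (s 1, s))), P x.2 := by
    have hq : Measure.QuasiMeasurePreserving (Prod.snd : (NonemptyCompacts ℂ × Fld Ω) × Sp Ω → _)
        (Q.map (fun s => (s 1, s))) Q := by
      refine ⟨measurable_snd, ?_⟩
      rw [Measure.map_map measurable_snd hm]
      have : (Prod.snd ∘ fun s : Sp Ω => (s 1, s)) = id := rfl
      rw [this, Measure.map_id]
    exact hq.ae h
  rw [← kap_comp] at h1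
  exact Measure.ae_ae_of_ae_compProd h1

theorem ae_kap_one {Q : Measure (Sp Ω)} [IsProbabilityMeasure Q] :
    ∀ᵐ p ∂(Q.map (fun s => s 1)), ∀ᵐ s ∂(kap Q p), s 1 = p := by
  have hm : Measurable (fun s : Sp Ω => (s 1, s)) := meas_one.prodMk measurable_id
  have h1 : ∀ᵐ x ∂(Q.map (fun s : Sp Ω => (s 1, s))), x.2 1 = x.1 := by
    rw [ae_map_iff hm.aemeasurable]
    · exact ae_of_all _ fun s => rfl
    · exact measurableSet_eq_fun (meas_one.comp measurable_snd) measurable_fst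
  rw [← kap_comp] at h1
  exact Measure.ae_ae_of_ae_compProd h1

/-- the two sides of the identity `gff` -/
noncomputable def dd (k : ℕ) (φ : ℂ → ℝ) (s : Sp Ω) : ℂ :=
  Complex.exp (Complex.I * cst * (pr (s (k + 1)).2 φ - pr (s k).2 φ) -
      greenEnergy (Ω \ (s (k + 1)).1) φ / 2) -
    Complex.exp (- greenEnergy (Ω \ (s k).1) φ / 2)

theorem exp1_le {a b : ℝ} (hb : 0 ≤ b) : ‖Complex.exp (Complex.I * cst * (a : ℂ) - (b : ℂ) / 2)‖ ≤ 1 := by
  rw [Complex.norm_exp, Real.exp_le_one_iff]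
  simp only [Complex.sub_re, Complex.mul_re, Complex.I_re, Complex.I_im, Complex.ofReal_re,
    Complex.ofReal_im, Complex.mul_im, Complex.div_ofNat_re]
  linarith

theorem exp2_le {b : ℝ} (hb : 0 ≤ b) : ‖Complex.exp (- (b : ℂ) / 2)‖ ≤ 1 := by
  rw [Complex.norm_exp, Real.exp_le_one_iff]
  simp only [Complex.neg_re, Complex.ofReal_re, Complex.div_ofNat_re]
  linarith

theorem e1_le (hb : Bornology.IsBounded Ω) {φ : ℂ → ℝ} (hφ : IsTest Ω φ) (k : ℕ) (s : Sp Ω) :
    ‖Complex.exp (Complex.I * cst * (pr (s (k + 1)).2 φ - pr (s k).2 φ) -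
      greenEnergy (Ω \ (s (k + 1)).1) φ / 2)‖ ≤ 1 := by
  have h := exp1_le (a := pr (s (k + 1)).2 φ - pr (s k).2 φ)
    (U613.greenEnergy_nonneg hb hφ (sdiff_subset (s := Ω) (t := ((s (k + 1)).1 : Set ℂ))))
  push_cast at h
  exact h

theorem e2_le (hb : Bornology.IsBounded Ω) {φ : ℂ → ℝ} (hφ : IsTest Ω φ) (k : ℕ) (s : Sp Ω) :
    ‖Complex.exp (- greenEnergy (Ω \ (s k).1) φ / 2)‖ ≤ 1 :=
  exp2_le (U613.greenEnergy_nonneg hb hφ sdiff_subset)

theorem meas_e1 (hb : Bornology.IsBounded Ω) {φ : ℂ → ℝ} (hφ : IsTest Ω φ) (k : ℕ) :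
    Measurable (fun s : Sp Ω => Complex.exp (Complex.I * cst *
      (pr (s (k + 1)).2 φ - pr (s k).2 φ) - greenEnergy (Ω \ (s (k + 1)).1) φ / 2)) := by
  have h1 : ∀ l, Measurable (fun s : Sp Ω => greenEnergy (Ω \ ((s l).1 : Set ℂ)) φ) := fun l =>
    (U.measurable_green hb hφ).comp (measurable_fst.comp (measurable_pi_apply l))
  have h2 : ∀ l, Measurable (fun s : Sp Ω => pr (s l).2 φ) := fun l =>
    (U613.measurable_pr hφ).comp (measurable_snd.comp (measurable_pi_apply l))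
  apply Complex.measurable_exp.comp
  exact (((Complex.measurable_ofReal.comp (h2 (k + 1))).sub
    (Complex.measurable_ofReal.comp (h2 k))).const_mul _).sub
    ((Complex.measurable_ofReal.comp (h1 (k + 1))).div_const 2)

theorem meas_e2 (hb : Bornology.IsBounded Ω) {φ : ℂ → ℝ} (hφ : IsTest Ω φ) (k : ℕ) :
    Measurable (fun s : Sp Ω => Complex.exp (- greenEnergy (Ω \ (s k).1) φ / 2)) := by
  have h1 : ∀ l, Measurable (fun s : Sp Ω => greenEnergy (Ω \ ((s l).1 : Set ℂ)) φ) := fun l =>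
    (U.measurable_green hb hφ).comp (measurable_fst.comp (measurable_pi_apply l))
  apply Complex.measurable_exp.comp
  exact ((Complex.measurable_ofReal.comp (h1 k)).neg).div_const 2

/-- the identity `gff` in the form of vanishing integrals -/
theorem gff_zero (hb : Bornology.IsBounded Ω) {Q : Measure (Sp Ω)} (hQ : Canon Ω Q) (k : ℕ)
    {φ : ℂ → ℝ} (hφ : IsTest Ω φ) {T : Set (Past Ω k)} (hT : MeasurableSet T) :
    ∫ s in (past k) ⁻¹' T, dd k φ s ∂Q = 0 := by
  have := hQ.prob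
  have hpm : Measurable (past (Ω := Ω) k) := U613.measurable_past Ω k
  have h := hQ.gff k φ hφ (T.indicator fun _ => (1 : ℝ)) ⟨measurable_const.indicator hT, 1,
    fun y => by
      by_cases hy : y ∈ T
      · rw [indicator_of_mem hy]; simp
      · rw [indicator_of_notMem hy]; simp⟩
  have e : ∀ g : Sp Ω → ℂ, (fun s => (((T.indicator fun _ => (1 : ℝ)) (past k s) : ℝ) : ℂ) * g s) =
      ((past k) ⁻¹' T).indicator g := by
    intro g
    funext s
    by_cases hs : past k s ∈ T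
    · rw [indicator_of_mem hs, indicator_of_mem (show s ∈ (past k) ⁻¹' T from hs)]
      simp
    · rw [indicator_of_notMem hs, indicator_of_notMem (show s ∉ (past k) ⁻¹' T from hs)]
      simp
  rw [e, e, integral_indicator (hpm hT), integral_indicator (hpm hT)] at h
  have i1 : Integrable (fun s : Sp Ω => Complex.exp (Complex.I * cst *
      (pr (s (k + 1)).2 φ - pr (s k).2 φ) - greenEnergy (Ω \ (s (k + 1)).1) φ / 2)) Q :=
    Integrable.of_bound (meas_e1 hb hφ k).aestronglyMeasurable 1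
      (ae_of_all _ fun s => e1_le hb hφ k s)
  have i2 : Integrable (fun s : Sp Ω => Complex.exp (- greenEnergy (Ω \ (s k).1) φ / 2)) Q :=
    Integrable.of_bound (meas_e2 hb hφ k).aestronglyMeasurable 1
      (ae_of_all _ fun s => e2_le hb hφ k s)
  unfold dd
  rw [integral_sub i1.integrableOn i2.integrableOn, h, sub_self]

/-- **the identity `gff` holds for the conditional laws given the first level** -/
theorem gff_kap (hΩ : IsOpen Ω) (hb : Bornology.IsBounded Ω) {Q : Measure (Sp Ω)}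
    [IsProbabilityMeasure Q] (hQ : Canon Ω Q) :
    ∀ᵐ p ∂(Q.map (fun s => s 1)), ∀ k, 1 ≤ k → ∀ φ, IsTest Ω φ → ∀ Ψ : Past Ω k → ℝ, BM Ψ →
      ∫ s, (Ψ (past k s) : ℂ) * dd k φ s ∂(kap Q p) = 0 := by
  obtain ⟨R, hR⟩ := Xe.exists_isR hΩ hb
  obtain ⟨e, he, hd⟩ := exists_dense (R := R) Ω
  have h1 : ∀ᵐ p ∂(Q.map (fun s => s 1)), ∀ j n, ∀ T : Set (Past Ω (j + 1)), MeasurableSet T →
      ∫ s in (past (j + 1)) ⁻¹' T, dd (j + 1) (e n) s ∂(kap Q p) = 0 := by
    rw [ae_all_iff]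
    intro j
    rw [ae_all_iff]
    intro n
    refine kernel_zero (C := 2) meas_one (U613.measurable_past Ω (j + 1))
      ((meas_e1 hb (he n) (j + 1)).sub (meas_e2 hb (he n) (j + 1))) ?_ ?_
    · intro s
      refine (norm_sub_le _ _).trans ?_
      have := e1_le hb (he n) (j + 1) s
      have := e2_le hb (he n) (j + 1) s
      linarith
    · intro B hB T hT
      have h2 := gff_zero hb hQ (j + 1) (he n) (T := T ∩ {y | y 1 ∈ B})
        (hT.inter ((measurable_pi_apply (1 : Fin (j + 1 + 1))) hB))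
      have e1 : (fun s : Sp Ω => s 1) ⁻¹' B ∩ (past (j + 1)) ⁻¹' T =
          (past (j + 1)) ⁻¹' (T ∩ {y | y 1 ∈ B}) := by
        ext s
        simp only [mem_inter_iff, mem_preimage, mem_ofPred_eq, past]
        rw [and_comm]
        rfl
      rw [e1]
      exact h2
  filter_upwards [h1] with p hp k hk φ hφ Ψ hΨ
  obtain ⟨j, rfl⟩ := Nat.exists_eq_add_of_le' hk
  obtain ⟨u, hu1, hu2⟩ := hd φ hφ
  obtain ⟨C, hC⟩ := hΨ.2
  have hdm : ∀ ψ, IsTest Ω ψ → Measurable (dd (Ω := Ω) (j + 1) ψ) := fun ψ hψ =>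
    (meas_e1 hb hψ (j + 1)).sub (meas_e2 hb hψ (j + 1))
  have hdb : ∀ ψ, IsTest Ω ψ → ∀ s, ‖dd (Ω := Ω) (j + 1) ψ s‖ ≤ 2 := by
    intro ψ hψ s
    refine (norm_sub_le _ _).trans ?_
    have := e1_le hb hψ (j + 1) s
    have := e2_le hb hψ (j + 1) s
    linarith
  have hz : ∀ n, ∫ s, (Ψ (past (j + 1) s) : ℂ) * dd (j + 1) (e n) s ∂(kap Q p) = 0 := fun n =>
    zero_of_sets (U613.measurable_past Ω (j + 1))
      (Integrable.of_bound (hdm _ (he n)).aestronglyMeasurable 2 (ae_of_all _ (hdb _ (he n))))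
      (fun T hT => hp j n T hT) hΨ.1 hC
  have hlim : Tendsto (fun n => ∫ s, (Ψ (past (j + 1) s) : ℂ) * dd (j + 1) (e (u n)) s ∂(kap Q p))
      atTop (𝓝 (∫ s, (Ψ (past (j + 1) s) : ℂ) * dd (j + 1) φ s ∂(kap Q p))) := by
    have hΨm : Measurable (fun s : Sp Ω => (Ψ (past (j + 1) s) : ℂ)) :=
      Complex.measurable_ofReal.comp (hΨ.1.comp (U613.measurable_past Ω (j + 1)))
    refine tendsto_integral_of_dominated_convergence (fun _ => |C| * 2) ?_ ?_ ?_ ?_
    · intro n
      exact (hΨm.mul (hdm _ (he _))).aestronglyMeasurable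
    · exact integrable_const _
    · intro n
      refine ae_of_all _ fun s => ?_
      rw [norm_mul]
      apply mul_le_mul _ (hdb _ (he _) s) (norm_nonneg _) (abs_nonneg _)
      rw [Complex.norm_real, Real.norm_eq_abs]
      exact (hC _).trans (le_abs_self C)
    · refine ae_of_all _ fun s => ?_
      apply Tendsto.const_mul
      have t1 : ∀ l, Tendsto (fun n => (greenEnergy (Ω \ ((s l).1 : Set ℂ)) (e (u n)) : ℂ)) atTop
          (𝓝 (greenEnergy (Ω \ ((s l).1 : Set ℂ)) φ : ℂ)) := fun l =>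
        (Complex.continuous_ofReal.tendsto _).comp
          (tendsto_energy hR sdiff_subset hφ (fun n => he _) hu1)
      have t2 : ∀ l, Tendsto (fun n => (pr (s l).2 (e (u n)) : ℂ)) atTop
          (𝓝 (pr (s l).2 φ : ℂ)) := fun l =>
        (Complex.continuous_ofReal.tendsto _).comp (hu2 _)
      unfold dd
      apply Tendsto.sub
      · apply (Complex.continuous_exp.tendsto _).comp
        exact (((t2 _).sub (t2 _)).const_mul _).sub ((t1 _).div_const 2)
      · apply (Complex.continuous_exp.tendsto _).comp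
        exact (t1 _).neg.div_const 2
  simp only [hz] at hlim
  exact tendsto_nhds_unique hlim tendsto_const_nhds |>.symm ▸ rfl

end Vale.Agent.P155.NT730Y
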