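import Vale.Agent.P155.NT730Y.Mk1

/-!
# P155, Markov property of the levels: given the first level, the next levels are signed carpets
of the open set `Ω \ G 1`
-/

namespace Vale.Agent.P155.NT730Y

open MeasureTheory ProbabilityTheory Set TopologicalSpace Filter Topology Uq

variable {Ω : Set ℂ}

theorem subset_closure_sdiff (hΩ : IsOpen Ω) {K : Set ℂ} (hnull : volume (K ∩ Ω) = 0) :
    Ω ⊆ closure (Ω \ K) := by
  intro x hx
  rw [Metric.mem_closure_iff]
  intro ε hε
  by_contra hcon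
  push Not at hcon
  obtain ⟨δ, hδ, hδΩ⟩ := Metric.isOpen_iff.1 hΩ x hx
  have hsub : Metric.ball x (min ε δ) ⊆ K ∩ Ω := by
    intro w hw
    have hw1 : w ∈ Ω := hδΩ (Metric.ball_subset_ball (min_le_right _ _) hw)
    refine ⟨?_, hw1⟩
    by_contra hK
    have h1 := hcon w ⟨hw1, hK⟩
    have h2 : dist w x < ε := lt_of_lt_of_le (Metric.mem_ball.1 hw) (min_le_left _ _)
    rw [dist_comm] at h2
    linarith
  have h3 : 0 < volume (Metric.ball x (min ε δ)) := Metric.measure_ball_pos _ _ (lt_min hε hδ)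
  exact absurd (measure_mono_null hsub hnull) h3.ne'

theorem closure_sdiff (hΩ : IsOpen Ω) {K : Set ℂ} (hnull : volume (K ∩ Ω) = 0) :
    closure (Ω \ K) = closure Ω := by
  apply Subset.antisymm (closure_mono sdiff_subset)
  exact closure_minimal (subset_closure_sdiff hΩ hnull) isClosed_closure

theorem frontier_sdiff (hΩ : IsOpen Ω) {K : Set ℂ} (hK : IsClosed K)
    (hnull : volume (K ∩ Ω) = 0) (h1 : frontier Ω ⊆ K) (h2 : K ⊆ closure Ω) :
    frontier (Ω \ K) = K := by
  rw [(hΩ.sdiff hK).frontier_eq, closure_sdiff hΩ hnull]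
  ext z
  simp only [Set.mem_sdiff, not_and, not_not]
  constructor
  · rintro ⟨h3, h4⟩
    by_cases hz : z ∈ Ω
    · exact h4 hz
    · apply h1
      rw [hΩ.frontier_eq]
      exact ⟨h3, hz⟩
  · intro h3
    exact ⟨h2 h3, fun _ => h3⟩

theorem test_sub {O : Set ℂ} (hO : O ⊆ Ω) {φ : ℂ → ℝ} (hφ : IsTest O φ) : IsTest Ω φ :=
  ⟨hφ.1, hφ.2.1, hφ.2.2.trans hO⟩

theorem meas_lev (k : ℕ) : Measurable (fun s : Sp Ω => s k) := measurable_pi_apply k

/-- almost sure properties of the canonical sequence, collected -/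
structure Good (Ω : Set ℂ) (p : NonemptyCompacts ℂ × Fld Ω) (s : Sp Ω) : Prop where
  one : s 1 = p
  zero : ((s 0).1 : Set ℂ) = frontier Ω ∧ (s 0).2 = 0
  mono : ∀ k, ((s k).1 : Set ℂ) ⊆ (s (k + 1)).1 ∧ ((s k).1 : Set ℂ) ⊆ closure Ω
  conn : ∀ k, IsConnected ((s k).1 : Set ℂ)
  null : ∀ k, volume (((s k).1 : Set ℂ) ∩ Ω) = 0
  sign : ∀ k, ∀ z r, 0 < r → Metric.closedBall z r ⊆ Ω →
    Disjoint (Metric.closedBall z r) ((s (k + 1)).1 : Set ℂ) → ∃ t : ℝ, (t = 1 ∨ t = -1) ∧
    ∀ᵐ w ∂(volume.restrict Ω : Measure ℂ), w ∈ Metric.ball z r →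
      (s (k + 1)).2 w - (s k).2 w = t

theorem good_kap {Q : Measure (Sp Ω)} [IsProbabilityMeasure Q] (hQ : Canon Ω Q) :
    ∀ᵐ p ∂(Q.map (fun s => s 1)), ∀ᵐ s ∂(kap Q p), Good Ω p s := by
  filter_upwards [ae_kap_one (Q := Q), ae_kap hQ.zero, ae_kap hQ.mono, ae_kap hQ.conn,
    ae_kap hQ.null, ae_kap hQ.sign] with p h1 h2 h3 h4 h5 h6
  filter_upwards [h1, h2, h3, h4, h5, h6] with s g1 g2 g3 g4 g5 g6
  exact ⟨g1, g2, g3, g4, g5, g6⟩

theorem good_mono {p : NonemptyCompacts ℂ × Fld Ω} {s : Sp Ω} (h : Good Ω p s) {j k : ℕ}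
    (hjk : j ≤ k) : ((s j).1 : Set ℂ) ⊆ (s k).1 := by
  induction k, hjk using Nat.le_induction with
  | base => exact subset_rfl
  | succ n _ ih => exact ih.trans (h.mono n).1

theorem good_frontier (hΩ : IsOpen Ω) {p : NonemptyCompacts ℂ × Fld Ω} {s : Sp Ω}
    (h : Good Ω p s) : frontier (Ω \ (p.1 : Set ℂ)) = p.1 := by
  have e : p.1 = (s 1).1 := by rw [h.one]
  rw [e]
  apply frontier_sdiff hΩ (s 1).1.isCompact.isClosed (h.null 1) _ (h.mono 1).2
  rw [← h.zero.1]
  exact (h.mono 0).1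

theorem good_diff (hΩ : IsOpen Ω) {p : NonemptyCompacts ℂ × Fld Ω} {s : Sp Ω}
    (h : Good Ω p s) (k : ℕ) :
    ∀ᵐ w ∂(volume.restrict Ω : Measure ℂ), |(s (k + 1)).2 w - p.2 w| ≤ (k : ℝ) := by
  have e : p.2 = (s 1).2 := by rw [h.one]
  rw [e]
  induction k with
  | zero =>
    refine ae_of_all _ fun w => ?_
    simp
  | succ k ih =>
    have h1 := abs_diff_eq_one hΩ (s (k + 2)).1.isCompact.isClosed (h.null (k + 2))
      (s (k + 1)).2 (s (k + 2)).2 (h.sign (k + 1))
    filter_upwards [ih, h1] with w h2 h3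
    have h4 : (s (k + 1 + 1)).2 w - (s 1).2 w =
        ((s (k + 2)).2 w - (s (k + 1)).2 w) + ((s (k + 1)).2 w - (s 1).2 w) := by
      show (s (k + 2)).2 w - (s 1).2 w = _
      ring
    rw [h4]
    refine (abs_add_le _ _).trans ?_
    rw [h3]
    push_cast
    linarith

/-- **(I1) the Markov property of the levels** -/
theorem markov (hΩ : IsOpen Ω) (hb : Bornology.IsBounded Ω) {Q : Measure (Sp Ω)}
    [IsProbabilityMeasure Q] (hQ : Canon Ω Q) :
    ∀ᵐ p ∂(Q.map (fun s => s 1)), IsSignedCarpets (kap Q p) (Ω \ (p.1 : Set ℂ))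
      (fun k s => (s (k + 1)).1) (fun k s φ => pr (s (k + 1)).2 φ - pr p.2 φ) := by
  filter_upwards [good_kap hQ, gff_kap hΩ hb hQ] with p hg hgff
  have hO : Ω \ (p.1 : Set ℂ) ⊆ Ω := sdiff_subset
  refine ⟨?_, ?_, ?_, ?_, ?_, ?_, ?_, ?_⟩
  · -- zero
    filter_upwards [hg] with s hs
    refine ⟨?_, fun φ _ => ?_⟩
    · rw [good_frontier hΩ hs]
      show ((s 1).1 : Set ℂ) = p.1
      rw [hs.one]
    · show pr (s 1).2 φ - pr p.2 φ = 0
      rw [hs.one, sub_self]
  · -- rep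
    filter_upwards [hg] with s hs k
    set f : Fld Ω := (s (k + 1)).2 - p.2 with hf
    have hfae : ∀ᵐ w ∂(volume.restrict Ω : Measure ℂ), |f w| ≤ (k : ℝ) := by
      filter_upwards [good_diff hΩ hs k, Lp.coeFn_sub (s (k + 1)).2 p.2] with w h1 h2
      rw [hf, h2]
      exact h1
    refine ⟨fun z => max (-(k : ℝ)) (min k (f z)), ?_, ?_, ?_⟩
    · exact measurable_const.max (measurable_const.min (Lp.stronglyMeasurable f).measurable)
    · intro z
      rw [abs_le]
      refine ⟨le_max_left _ _, max_le ?_ (min_le_left _ _)⟩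
      have : (0 : ℝ) ≤ k := Nat.cast_nonneg k
      linarith
    · intro φ hφ
      have hφΩ := test_sub hO hφ
      show pr (s (k + 1)).2 φ - pr p.2 φ = _
      rw [← U613.pr_sub _ _ hφΩ, ← U613.integral_test_eq hΩ.measurableSet hO hφ]
      unfold pr
      apply integral_congr_ae
      filter_upwards [hfae] with w hw
      rw [min_eq_right (abs_le.1 hw).2, max_eq_right (abs_le.1 hw).1]
  · -- mono
    filter_upwards [hg] with s hs k
    have hnull : volume ((p.1 : Set ℂ) ∩ Ω) = 0 := by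
      have := hs.null 1
      rwa [hs.one] at this
    rw [closure_sdiff hΩ hnull]
    exact hs.mono (k + 1)
  · -- conn
    filter_upwards [hg] with s hs k
    exact hs.conn (k + 1)
  · -- null
    filter_upwards [hg] with s hs k
    exact measure_mono_null (inter_subset_inter_right _ hO) (hs.null (k + 1))
  · -- sign
    filter_upwards [hg] with s hs k z r hr hz hd
    obtain ⟨t, ht, hae⟩ := hs.sign (k + 1) z r hr (hz.trans hO) hd
    refine ⟨t, ht, fun φ hφ => ?_⟩
    have hBΩ : Metric.ball z r ⊆ Ω := (Metric.ball_subset_closedBall.trans hz).trans hO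
    have hφΩ := test_sub hBΩ hφ
    show pr (s (k + 1 + 1)).2 φ - pr p.2 φ - (pr (s (k + 1)).2 φ - pr p.2 φ) = _
    have e : pr (s (k + 1 + 1)).2 φ - pr p.2 φ - (pr (s (k + 1)).2 φ - pr p.2 φ) =
        pr ((s (k + 1 + 1)).2 - (s (k + 1)).2) φ := by
      rw [U613.pr_sub _ _ hφΩ]
      ring
    rw [e]
    apply U613.pr_of_eq_const hΩ.measurableSet hBΩ _ hφ
    filter_upwards [hae, Lp.coeFn_sub (s (k + 1 + 1)).2 (s (k + 1)).2] with w h1 h2 h3
    rw [h2]
    exact h1 h3
  · -- meas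
    intro k
    refine ⟨measurable_fst.comp (meas_lev (k + 1)), fun φ hφ => ⟨?_, ?_⟩⟩
    · exact ((U613.measurable_pr (test_sub hO hφ)).comp
        (measurable_snd.comp (meas_lev (k + 1)))).sub_const _
    · exact (U.measurable_green (hb.subset hO) hφ).comp (measurable_fst.comp (meas_lev (k + 1)))
  · -- gff
    intro k m χ φ hχ hφ F hF hFb
    have hφΩ := test_sub hO hφ
    have hpr : ∀ i, Measurable (fun f : Fld Ω => pr f (χ i)) := fun i =>
      U613.measurable_pr (test_sub hO (hχ i))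
    set Ψ : Past Ω (k + 1) → ℝ := fun y =>
      F (fun j => (y j.succ).1, fun j i => pr (y j.succ).2 (χ i) - pr p.2 (χ i)) with hΨ
    have hΨm : Measurable Ψ := by
      apply hF.measurable.comp
      apply Measurable.prodMk
      · exact measurable_pi_lambda _ fun j => measurable_fst.comp (measurable_pi_apply _)
      · refine measurable_pi_lambda _ fun j => measurable_pi_lambda _ fun i => ?_
        exact ((hpr i).comp (measurable_snd.comp (measurable_pi_apply _))).sub_const _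
    obtain ⟨C, hC⟩ := hFb
    have h0 := hgff (k + 1) (by omega) φ hφΩ Ψ ⟨hΨm, C, fun y => hC _⟩
    have hΨs : Measurable (fun s : Sp Ω => (Ψ (past (k + 1) s) : ℂ)) :=
      Complex.measurable_ofReal.comp (hΨm.comp (U613.measurable_past Ω (k + 1)))
    have i1 : Integrable (fun s : Sp Ω => (Ψ (past (k + 1) s) : ℂ) * Complex.exp (Complex.I * cst *
        (pr (s (k + 1 + 1)).2 φ - pr (s (k + 1)).2 φ) -
          greenEnergy (Ω \ (s (k + 1 + 1)).1) φ / 2)) (kap Q p) := by
      refine Integrable.of_bound (hΨs.mul (meas_e1 hb hφΩ (k + 1))).aestronglyMeasurable (|C| * 1)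
        (ae_of_all _ fun s => ?_)
      rw [norm_mul]
      apply mul_le_mul _ (e1_le hb hφΩ (k + 1) s) (norm_nonneg _) (abs_nonneg _)
      rw [Complex.norm_real, Real.norm_eq_abs]
      exact (hC _).trans (le_abs_self C)
    have i2 : Integrable (fun s : Sp Ω => (Ψ (past (k + 1) s) : ℂ) *
        Complex.exp (- greenEnergy (Ω \ (s (k + 1)).1) φ / 2)) (kap Q p) := by
      refine Integrable.of_bound (hΨs.mul (meas_e2 hb hφΩ (k + 1))).aestronglyMeasurable (|C| * 1)
        (ae_of_all _ fun s => ?_)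
      rw [norm_mul]
      apply mul_le_mul _ (e2_le hb hφΩ (k + 1) s) (norm_nonneg _) (abs_nonneg _)
      rw [Complex.norm_real, Real.norm_eq_abs]
      exact (hC _).trans (le_abs_self C)
    have h1 : ∫ s, (Ψ (past (k + 1) s) : ℂ) * Complex.exp (Complex.I * cst *
        (pr (s (k + 1 + 1)).2 φ - pr (s (k + 1)).2 φ) -
          greenEnergy (Ω \ (s (k + 1 + 1)).1) φ / 2) ∂(kap Q p) =
        ∫ s, (Ψ (past (k + 1) s) : ℂ) *
          Complex.exp (- greenEnergy (Ω \ (s (k + 1)).1) φ / 2) ∂(kap Q p) := by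
      rw [← sub_eq_zero, ← integral_sub i1 i2, ← h0]
      congr 1
      funext s
      unfold dd
      ring
    have hset : ∀ s : Sp Ω, Good Ω p s → ∀ j, 1 ≤ j →
        (Ω \ (p.1 : Set ℂ)) \ ((s j).1 : Set ℂ) = Ω \ ((s j).1 : Set ℂ) := by
      intro s hs j hj
      have hsub : (p.1 : Set ℂ) ⊆ (s j).1 := by
        have := good_mono hs hj
        rwa [hs.one] at this
      ext z
      simp only [Set.mem_sdiff]
      constructor
      · rintro ⟨⟨a, -⟩, c⟩
        exact ⟨a, c⟩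
      · rintro ⟨a, c⟩
        exact ⟨⟨a, fun h => c (hsub h)⟩, c⟩
    refine Eq.trans (integral_congr_ae ?_) (h1.trans (integral_congr_ae ?_))
    · filter_upwards [hg] with s hs
      rw [hset s hs (k + 1 + 1) (by omega)]
      have e : (pr (s (k + 1 + 1)).2 φ - pr p.2 φ : ℝ) - (pr (s (k + 1)).2 φ - pr p.2 φ) =
          pr (s (k + 1 + 1)).2 φ - pr (s (k + 1)).2 φ := by ring
      have e2 : ((pr (s (k + 1 + 1)).2 φ - pr p.2 φ : ℝ) : ℂ) -
          ((pr (s (k + 1)).2 φ - pr p.2 φ : ℝ) : ℂ) =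
          (pr (s (k + 1 + 1)).2 φ : ℂ) - (pr (s (k + 1)).2 φ : ℂ) := by
        rw [← Complex.ofReal_sub, e, Complex.ofReal_sub]
      rw [e2]
      rfl
    · filter_upwards [hg] with s hs
      rw [hset s hs (k + 1) (by omega)]
      rfl

end Vale.Agent.P155.NT730Y
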