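import Vale.Agent.P155.NT730Y.Mk2

/-!
# P155: uniqueness of the law of the carpets in the form of an equality of laws of sequences, and
the disintegration with respect to the first level
-/

namespace Vale.Agent.P155.NT730Y

open MeasureTheory ProbabilityTheory Set TopologicalSpace Filter Topology Uq

/-- laws of sequences of carpets are determined by the finite dimensional integrals -/
theorem seq_law_ext {μ ν : Measure (ℕ → NonemptyCompacts ℂ)} [IsFiniteMeasure μ]
    [IsFiniteMeasure ν]
    (h : ∀ (k : ℕ) (F : (Fin k → NonemptyCompacts ℂ) → ℝ), Continuous F →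
      (∃ C, ∀ y, |F y| ≤ C) → ∫ s, F (fun l => s l) ∂μ = ∫ s, F (fun l => s l) ∂ν) : μ = ν := by
  refine U613.measure_ext (ι := ℕ × ℕ)
    (f := fun i (s : ℕ → NonemptyCompacts ℂ) => Metric.infDist (denseSeq ℂ i.2) (s i.1 : Set ℂ))
    ?_ ?_ ?_
  · intro i
    exact (U613.continuous_infDist _).measurable.comp (measurable_pi_apply _)
  · intro s t hst
    funext k
    exact U613.ext_infDist fun n => hst (k, n)
  · intro J F hF hFb
    obtain ⟨C, hC⟩ := hFb
    set m : ℕ := J.sup (fun p => p.1) + 1 with hm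
    have hlt : ∀ j : J, j.1.1 < m := by
      intro j
      have : j.1.1 ≤ J.sup (fun p => p.1) := Finset.le_sup (f := fun p : ℕ × ℕ => p.1) j.2
      omega
    exact h m (fun y => F (fun j : J => Metric.infDist (denseSeq ℂ j.1.2)
        (y ⟨j.1.1, hlt j⟩ : Set ℂ)))
      (hF.comp (continuous_pi fun j => (U613.continuous_infDist _).comp (continuous_apply _)))
      ⟨C, fun y => hC _⟩

theorem meas_seq {Θ : Type} [MeasurableSpace Θ] {P : Measure Θ} {O : Set ℂ}
    {G : ℕ → Θ → NonemptyCompacts ℂ} {H : ℕ → Θ → (ℂ → ℝ) → ℝ} (h : IsSignedCarpets P O G H) :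
    Measurable (fun x k => G k x) :=
  measurable_pi_lambda _ fun k => (h.meas k).1

/-- **uniqueness of the law of the carpets**, every bounded open set -/
theorem uniq_law {O : Set ℂ} (hO : IsOpen O) (hb : Bornology.IsBounded O) (hne : O.Nonempty)
    {Θ Θ' : Type} [MeasurableSpace Θ] [MeasurableSpace Θ'] {P : Measure Θ} [IsProbabilityMeasure P]
    {P' : Measure Θ'} [IsProbabilityMeasure P'] {G : ℕ → Θ → NonemptyCompacts ℂ}
    {H : ℕ → Θ → (ℂ → ℝ) → ℝ} {G' : ℕ → Θ' → NonemptyCompacts ℂ} {H' : ℕ → Θ' → (ℂ → ℝ) → ℝ}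
    (h : IsSignedCarpets P O G H) (h' : IsSignedCarpets P' O G' H') :
    P.map (fun x k => G k x) = P'.map (fun x k => G' k x) := by
  have hm := meas_seq h
  have hm' := meas_seq h'
  have := Measure.isProbabilityMeasure_map (μ := P) hm.aemeasurable
  have := Measure.isProbabilityMeasure_map (μ := P') hm'.aemeasurable
  refine seq_law_ext fun k F hF hFb => ?_
  obtain ⟨C, hC⟩ := hFb
  have hFm : Measurable (fun s : ℕ → NonemptyCompacts ℂ => F (fun l : Fin k => s l)) :=
    hF.measurable.comp (measurable_pi_lambda _ fun l => measurable_pi_apply _)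
  rw [integral_map hm.aemeasurable hFm.aestronglyMeasurable,
    integral_map hm'.aemeasurable hFm.aestronglyMeasurable]
  exact uniqueness O hO hb hne P P' G H G' H' h h' k 0 (fun i => Fin.elim0 i)
    (fun i => Fin.elim0 i) (fun y => F y.1) (hF.comp continuous_fst) ⟨C, fun y => hC _⟩

/-- a canonical law with the same carpets -/
theorem exists_canon {O : Set ℂ} (hO : IsOpen O) (hb : Bornology.IsBounded O) (hne : O.Nonempty)
    {Θ : Type} [MeasurableSpace Θ] {P : Measure Θ} [IsProbabilityMeasure P]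
    {G : ℕ → Θ → NonemptyCompacts ℂ} {H : ℕ → Θ → (ℂ → ℝ) → ℝ} (h : IsSignedCarpets P O G H) :
    ∃ Q : Measure (Sp O), Canon O Q ∧
      P.map (fun x k => G k x) = Q.map (fun s k => (s k).1) := by
  obtain ⟨Q, hQ, hlaw⟩ := U613.canonStmt O hO hb hne P G H h
  refine ⟨Q, hQ, ?_⟩
  have := hQ.prob
  have hm := meas_seq h
  have hm' : Measurable (fun (s : Sp O) (k : ℕ) => (s k).1) :=
    measurable_pi_lambda _ fun k => measurable_fst.comp (meas_lev k)
  have := Measure.isProbabilityMeasure_map (μ := P) hm.aemeasurable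
  have := Measure.isProbabilityMeasure_map (μ := Q) hm'.aemeasurable
  refine seq_law_ext fun k F hF hFb => ?_
  obtain ⟨C, hC⟩ := hFb
  have hFm : Measurable (fun s : ℕ → NonemptyCompacts ℂ => F (fun l : Fin k => s l)) :=
    hF.measurable.comp (measurable_pi_lambda _ fun l => measurable_pi_apply _)
  rw [integral_map hm.aemeasurable hFm.aestronglyMeasurable,
    integral_map hm'.aemeasurable hFm.aestronglyMeasurable]
  exact hlaw k 0 (fun i => Fin.elim0 i) (fun i => Fin.elim0 i) (fun y => F y.1)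
    (hF.comp continuous_fst) ⟨C, fun y => hC _⟩

section

variable {Ω : Set ℂ}

theorem meas_fst : Measurable (fun (s : Sp Ω) (k : ℕ) => (s k).1) :=
  measurable_pi_lambda _ fun k => measurable_fst.comp (meas_lev k)

/-- the conditional law of the carpets given the first level -/
noncomputable def kcar (Q : Measure (Sp Ω)) [IsFiniteMeasure Q] :
    Kernel (NonemptyCompacts ℂ × Fld Ω) (ℕ → NonemptyCompacts ℂ) :=
  (kap Q).map (fun s k => (s k).1)

instance (Q : Measure (Sp Ω)) [IsFiniteMeasure Q] : IsMarkovKernel (kcar Q) := by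
  unfold kcar
  exact Kernel.IsMarkovKernel.map _ meas_fst

theorem kcar_apply (Q : Measure (Sp Ω)) [IsFiniteMeasure Q] (p : NonemptyCompacts ℂ × Fld Ω) :
    kcar Q p = (kap Q p).map (fun s k => (s k).1) := by
  unfold kcar
  rw [Kernel.map_apply _ meas_fst]

/-- disintegration of the law with respect to the first level -/
theorem bind_kap (Q : Measure (Sp Ω)) [IsProbabilityMeasure Q] :
    (Q.map (fun s => s 1)).bind (kap Q) = Q := by
  have hm : Measurable (fun s : Sp Ω => (s 1, s)) := meas_one.prodMk measurable_id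
  have h := kap_comp Q
  have h2 : ((Q.map (fun s => s 1)) ⊗ₘ kap Q).snd = Q := by
    rw [h, Measure.snd, Measure.map_map measurable_snd hm]
    have : (Prod.snd ∘ fun s : Sp Ω => (s 1, s)) = id := rfl
    rw [this, Measure.map_id]
  rw [← Measure.snd_compProd, h2]

theorem bind_kcar (Q : Measure (Sp Ω)) [IsProbabilityMeasure Q] :
    Q.map (fun s k => (s k).1) = (Q.map (fun s => s 1)).bind (kcar Q) := by
  conv_lhs => rw [← bind_kap Q]
  unfold kcar
  exact (Measure.map_comp _ _ meas_fst)

/-- **the data of ITER**: kernel, first level, Markov property -/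
theorem iter_data {Θ : Type} [MeasurableSpace Θ] (hΩ : IsOpen Ω) (hb : Bornology.IsBounded Ω)
    (hne : Ω.Nonempty) {P : Measure Θ} [IsProbabilityMeasure P]
    {G : ℕ → Θ → NonemptyCompacts ℂ} {H : ℕ → Θ → (ℂ → ℝ) → ℝ} (h : IsSignedCarpets P Ω G H) :
    ∃ (Q : Measure (Sp Ω)) (_ : IsProbabilityMeasure Q), Canon Ω Q ∧
      P.map (fun x k => G k x) = (Q.map (fun s => s 1)).bind (kcar Q) ∧
      ∀ᵐ p ∂(Q.map (fun s => s 1)), (∀ᵐ s ∂(kap Q p), Good Ω p s) ∧
        (∀ᵐ s ∂(kcar Q p), s 1 = p.1) ∧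
        IsSignedCarpets (kap Q p) (Ω \ (p.1 : Set ℂ)) (fun k s => (s (k + 1)).1)
          (fun k s φ => pr (s (k + 1)).2 φ - pr p.2 φ) ∧
        (kcar Q p).map (fun s k => s (k + 1)) = (kap Q p).map (fun s k => (s (k + 1)).1) := by
  obtain ⟨Q, hQ, hlaw⟩ := exists_canon hΩ hb hne h
  have hp := hQ.prob
  refine ⟨Q, hp, hQ, hlaw.trans (bind_kcar Q), ?_⟩
  filter_upwards [good_kap hQ, markov hΩ hb hQ] with p hg hm
  refine ⟨hg, ?_, hm, ?_⟩
  · rw [kcar_apply, ae_map_iff meas_fst.aemeasurable]
    · filter_upwards [hg] with s hs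
      rw [hs.one]
    · exact measurableSet_eq_fun (measurable_pi_apply 1) measurable_const
  · rw [kcar_apply, Measure.map_map (measurable_pi_lambda _ fun k => measurable_pi_apply _)
      meas_fst]
    rfl

end

end Vale.Agent.P155.NT730Y
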